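import Vale.Agent.P247.H383.ZEND.Int
import Vale.Agent.P247.H690.END.Sta

/-!
# P247, stage 2, package Z: the light cone argument
-/

open scoped ContDiff Topology
open Set MeasureTheory Filter Metric

noncomputable section

namespace Vale.Agent.P247.H383.ZEND

open Vale.Agent.P247.H74 Vale.Agent.P247.H574 Vale.Agent.P247.H74.RPFIN
open Vale.Agent.P247.H690.END

/-- a constant form as a `CForm` -/
def constC (κ : F2) (h : ∀ u, κ u u = 0) : CForm where
  κ := κ
  κ_self := h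
  lam := fun _ => 0
  lam_smooth := contDiff_const
  lam_per _ _ := rfl

theorem constC_val (κ : F2) (h : ∀ u, κ u u = 0) (x u v : R4) : (constC κ h).val x u v = κ u v := by
  simp [CForm.val, constC]

theorem f2_pl (κ : F2) (h : ∀ u, κ u u = 0) (u v : R4) :
    κ u v = pr (co fun u v => κ u v) (pl u v) := by
  have h1 := val_pl (constC κ h) 0 u v
  rw [constC_val] at h1
  rw [h1]
  congr 2
  funext u v
  exact constC_val κ h 0 u v

/-- basis two-forms -/
def bf (i j : Fin 4) : F2 :=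
  (ContinuousLinearMap.proj i : R4 →L[ℝ] ℝ).smulRight (ContinuousLinearMap.proj j : R4 →L[ℝ] ℝ) -
  (ContinuousLinearMap.proj j : R4 →L[ℝ] ℝ).smulRight (ContinuousLinearMap.proj i : R4 →L[ℝ] ℝ)

theorem bf_apply (i j : Fin 4) (u v : R4) : bf i j u v = u i * v j - u j * v i := by
  simp [bf]

theorem bf_self (i j : Fin 4) (u : R4) : bf i j u u = 0 := by
  rw [bf_apply]; ring

/-- the dual of a bivector -/
def sd (p : Fin 6 → ℝ) : Fin 6 → ℝ := ![p 5, -p 4, p 3, p 2, -p 1, p 0]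

theorem qb_sd (a p : Fin 6 → ℝ) : qb a (sd p) = pr a p := by
  simp only [qb, sd, pr_eq]
  simp [Matrix.cons_val]

theorem qb_sd_sd (p q : Fin 6 → ℝ) : qb (sd p) (sd q) = qb p q := by
  simp only [qb, sd]
  simp [Matrix.cons_val]
  ring

theorem qb_pl (u v : R4) : qb (pl u v) (pl u v) = 0 := by
  simp only [qb, pl]
  simp [Matrix.cons_val]
  ring

theorem pl_e : pl (e 2) (e 3) = ![0, 0, 0, 0, 0, 1] := by
  simp [pl, e]

theorem qb_sub_smul (a b : Fin 6 → ℝ) (s : ℝ) : qb (a - s • b) (a - s • b)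
    = qb a a - 2 * s * qb a b + s ^ 2 * qb b b := by
  simp only [qb, Pi.sub_apply, Pi.smul_apply, smul_eq_mul]
  ring

theorem qb_sub_smul_right (h a b : Fin 6 → ℝ) (s : ℝ) :
    qb h (a - s • b) = qb h a - s * qb h b := by
  simp only [qb, Pi.sub_apply, Pi.smul_apply, smul_eq_mul]
  ring

/-- the three classes -/
def hh (D : Data) : Fin 3 → Fin 6 → ℝ :=
  ![co (fun u v => (D.η 0).κ u v), co (fun u v => (D.η 1).κ u v), co (fun u v => D.om.κ u v)]

theorem hh_sum (D : Data) (c : Fin 3 → ℝ) :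
    ∑ i, c i • hh D i = co (fun u v => (cmb D c).κ u v) := by
  rw [Fin.sum_univ_three]
  funext k
  fin_cases k <;> simp [hh, co, cmb]

theorem hh_pos {D : Data} (hD : Good D) (c : Fin 3 → ℝ) (hc : c ≠ 0) :
    0 < qb (∑ i, c i • hh D i) (∑ i, c i • hh D i) := by
  rw [hh_sum, ← w4_eq]
  exact kappa_pos (cmb D c) fun x => cmb_pos hD hc x

/-- one torus -/
theorem one_torus {D : Data} (hD : Good D) (u v : R4) (h0 : ∀ j, (D.η j).κ u v = 0)
    (h1 : 0 < D.om.κ u v) : 0 ≤ pl u v 0 ∧ (pl u v 0 = 0 →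
      pl u v = (D.om.κ u v / D.om.κ (e 2) (e 3)) • pl (e 2) (e 3)) := by
  set T := D.om.κ (e 2) (e 3) with hT
  have hT0 : 0 < T := hD.posc
  set l := D.om.κ u v / T with hl
  have hl0 : 0 < l := div_pos h1 hT0
  have key := neg_def (hh D) (hh_pos hD) (sd (pl u v) - l • sd (pl (e 2) (e 3))) (by
    intro i
    rw [qb_sub_smul_right, qb_sd, qb_sd]
    fin_cases i
    · show pr (co fun u v => (D.η 0).κ u v) _ - l * pr (co fun u v => (D.η 0).κ u v) _ = 0
      rw [← f2_pl _ (D.η 0).κ_self, ← f2_pl _ (D.η 0).κ_self, h0, D.cls]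
      ring
    · show pr (co fun u v => (D.η 1).κ u v) _ - l * pr (co fun u v => (D.η 1).κ u v) _ = 0
      rw [← f2_pl _ (D.η 1).κ_self, ← f2_pl _ (D.η 1).κ_self, h0, D.cls]
      ring
    · show pr (co fun u v => D.om.κ u v) _ - l * pr (co fun u v => D.om.κ u v) _ = 0
      rw [← f2_pl _ D.om.κ_self, ← f2_pl _ D.om.κ_self, ← hT, hl, div_mul_cancel₀ _ hT0.ne']
      ring)
  have e1 : qb (pl u v) (pl (e 2) (e 3)) = pl u v 0 := by
    rw [pl_e]
    simp [qb, Matrix.cons_val]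
  rw [qb_sub_smul, qb_sd_sd, qb_sd_sd, qb_sd_sd, qb_pl, qb_pl, e1] at key
  constructor
  · by_contra hcon
    push Not at hcon
    have := mul_pos hl0 (neg_pos.2 hcon)
    linarith [key.1]
  · intro h
    have h2 := key.2 (by rw [h]; ring)
    have h3 : ∀ k, sd (pl u v) k = l * sd (pl (e 2) (e 3)) k := by
      intro k
      have := congrFun h2 k
      simp only [Pi.sub_apply, Pi.smul_apply, smul_eq_mul, Pi.zero_apply] at this
      linarith
    have g0 := h3 0
    have g1 := h3 1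
    have g2 := h3 2
    have g3 := h3 3
    have g4 := h3 4
    have g5 := h3 5
    simp only [sd, pl_e] at g0 g1 g2 g3 g4 g5
    simp [Matrix.cons_val] at g0 g1 g2 g3 g4 g5
    rw [pl_e]
    funext k
    fin_cases k
    · show pl u v 0 = l * 0
      rw [mul_zero]; exact g5
    · show pl u v 1 = l * 0
      rw [mul_zero]; exact g4
    · show pl u v 2 = l * 0
      rw [mul_zero]; exact g3
    · show pl u v 3 = l * 0
      rw [mul_zero]; exact g2
    · show pl u v 4 = l * 0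
      rw [mul_zero]; exact g1
    · show pl u v 5 = l * 1
      rw [mul_one]; exact g0

theorem CONE : CONE_statement := by
  intro D hD M n m hm h0 h1 hs
  have e1 : ∀ i, 0 ≤ pl (vz (n i 0)) (vz (n i 1)) 0 ∧ (pl (vz (n i 0)) (vz (n i 1)) 0 = 0 →
      pl (vz (n i 0)) (vz (n i 1)) = (D.om.κ (vz (n i 0)) (vz (n i 1)) / D.om.κ (e 2) (e 3)) •
        pl (e 2) (e 3)) := fun i => one_torus hD _ _ (h0 i) (h1 i)
  -- the component `01`
  have s0 := hs (bf 0 1) (bf_self 0 1)
  simp only [bf_apply] at s0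
  have s0' : ∑ i, (m i : ℝ) * pl (vz (n i 0)) (vz (n i 1)) 0 = 0 := by
    have : (e 2 : R4) 0 * (e 3 : R4) 1 - (e 2 : R4) 1 * (e 3 : R4) 0 = 0 := by simp [e]
    rw [this] at s0
    exact s0.symm
  have z0 : ∀ i, pl (vz (n i 0)) (vz (n i 1)) 0 = 0 := by
    intro i
    have h2 := (Finset.sum_eq_zero_iff_of_nonneg (fun i _ =>
      mul_nonneg (Nat.cast_nonneg (m i)) (e1 i).1)).1 s0' i (Finset.mem_univ i)
    have h3 : (m i : ℝ) ≠ 0 := by
      have := hm i
      positivity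
    exact (mul_eq_zero.1 h2).resolve_left h3
  -- the component `23`
  have s5 := hs (bf 2 3) (bf_self 2 3)
  simp only [bf_apply] at s5
  have s5' : ∑ i, (m i : ℝ) * pl (vz (n i 0)) (vz (n i 1)) 5 = 1 := by
    have : (e 2 : R4) 2 * (e 3 : R4) 3 - (e 2 : R4) 3 * (e 3 : R4) 2 = 1 := by simp [e]
    rw [this] at s5
    exact s5.symm
  have p5 : ∀ i, 1 ≤ pl (vz (n i 0)) (vz (n i 1)) 5 := by
    intro i
    have h2 := (e1 i).2 (z0 i)
    have h3 : 0 < pl (vz (n i 0)) (vz (n i 1)) 5 := by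
      rw [h2, pl_e]
      simpa using div_pos (h1 i) hD.posc
    have h4 : pl (vz (n i 0)) (vz (n i 1)) 5
        = ((n i 0 2 * n i 1 3 - n i 0 3 * n i 1 2 : ℤ) : ℝ) := by
      simp [pl, vz]
    rw [h4] at h3 ⊢
    exact_mod_cast h3
  obtain ⟨i, -⟩ : ∃ i : Fin M, True := by
    by_contra hcon
    push Not at hcon
    have : (∑ i, (m i : ℝ) * pl (vz (n i 0)) (vz (n i 1)) 5) = 0 :=
      Finset.sum_eq_zero fun i _ => (hcon i).elim
    rw [this] at s5'
    norm_num at s5'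
  have h6 : (m i : ℝ) * pl (vz (n i 0)) (vz (n i 1)) 5 ≤ 1 := by
    rw [← s5']
    exact Finset.single_le_sum (f := fun i => (m i : ℝ) * pl (vz (n i 0)) (vz (n i 1)) 5)
      (fun i _ => mul_nonneg (Nat.cast_nonneg (m i)) (zero_le_one.trans (p5 i)))
      (Finset.mem_univ i)
  have h7 : pl (vz (n i 0)) (vz (n i 1)) 5 = 1 := by
    have hm1 : (1 : ℝ) ≤ m i := by exact_mod_cast hm i
    have := p5 i
    nlinarith
  have h8 : pl (vz (n i 0)) (vz (n i 1)) = pl (e 2) (e 3) := by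
    have h2 := (e1 i).2 (z0 i)
    have h9 := congrFun h2 5
    rw [h7, pl_e] at h9
    simp at h9
    rw [h2, ← h9, one_smul]
  refine ⟨i, fun κ hκ => ?_⟩
  rw [f2_pl κ hκ, h8, ← f2_pl κ hκ]

end Vale.Agent.P247.H383.ZEND
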