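import Vale.Agent.P247.H383.ZEND.Pt

/-!
# P247, stage 2, package Z: integration over the unit cube

`∫ val ∧ val = κ ∧ κ` for every closed two-form.
-/

open scoped ContDiff Topology
open Set MeasureTheory Filter Metric

noncomputable section

namespace Vale.Agent.P247.H383.ZEND

open Vale.Agent.P247.H74 Vale.Agent.P247.H574 Vale.Agent.P247.H74.RPFIN

/-- the integral of a partial derivative of a periodic function over the unit cube vanishes -/
theorem integral_pd {f : R4 → ℝ} (hf : ContDiff ℝ 1 f)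
    (hp : ∀ (n : Fin 4 → ℤ) (x : R4), f (fun i => x i + n i) = f x) (k : Fin 4) :
    ∫ x in Icc (0 : R4) 1, fderiv ℝ f x (e k) = 0 := by
  have hfd : Continuous fun x => fderiv ℝ f x (e k) :=
    (hf.continuous_fderiv (by simp)).clm_apply continuous_const
  have e1 : ∀ x : R4, ∑ i, (if i = k then fderiv ℝ f x else 0) (Pi.single i 1)
      = fderiv ℝ f x (e k) := by
    intro x
    rw [Finset.sum_eq_single k]
    · simp [e]
    · intro b _ hb
      simp [hb]
    · simp only [Finset.mem_univ, not_true_eq_false, ↓reduceIte, IsEmpty.forall_iff]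
  have h := integral_divergence_of_hasFDerivAt_off_countable' (n := 3) (E := ℝ) (0 : R4) 1
    zero_le_one (fun i x => if i = k then f x else 0)
    (fun i x => if i = k then fderiv ℝ f x else 0) ∅ countable_empty
    (fun i => by
      by_cases h : i = k
      · simpa only [Nat.reduceAdd, h, ↓reduceIte] using hf.continuous.continuousOn
      · simpa only [Nat.reduceAdd, h, ↓reduceIte] using continuousOn_const)
    (fun x _ i => by
      by_cases h : i = k
      · simpa [h] using (hf.differentiable (by simp) x).hasFDerivAt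
      · simpa [h] using hasFDerivAt_const (0 : ℝ) x)
    (by
      have : (fun x => ∑ i, (if i = k then fderiv ℝ f x else 0) (Pi.single i 1)) =
          fun x => fderiv ℝ f x (e k) := funext e1
      rw [this]
      exact hfd.integrableOn_Icc)
  simp only [e1] at h
  rw [h]
  refine Finset.sum_eq_zero fun i _ => ?_
  by_cases hi : i = k
  · subst hi
    rw [sub_eq_zero]
    refine setIntegral_congr_fun measurableSet_Icc fun y _ => ?_
    simp only [if_true]
    have : (Fin.insertNth i ((1 : R4) i) y : R4) =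
        fun j => (Fin.insertNth i ((0 : R4) i) y : R4) j + ((Pi.single i 1 : Fin 4 → ℤ) j : ℝ) := by
      funext j
      rcases Fin.eq_self_or_eq_succAbove i j with rfl | ⟨m, rfl⟩
      · simp
      · simp
    rw [this]
    exact hp _ _
  · simp only [Nat.reduceAdd, Pi.zero_comp, Pi.one_comp, hi, ↓reduceIte, integral_zero, sub_self]

/-- continuous functions with vanishing integral over the cube -/
structure ZI (f : R4 → ℝ) : Prop where
  cont : Continuous f
  zero : ∫ x in Icc (0 : R4) 1, f x = 0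

theorem ZI.add {f g : R4 → ℝ} (hf : ZI f) (hg : ZI g) : ZI fun x => f x + g x := by
  refine ⟨hf.cont.add hg.cont, ?_⟩
  rw [integral_add hf.cont.integrableOn_Icc hg.cont.integrableOn_Icc, hf.zero, hg.zero, add_zero]

theorem ZI.smul {f : R4 → ℝ} (c : ℝ) (hf : ZI f) : ZI fun x => c * f x := by
  refine ⟨continuous_const.mul hf.cont, ?_⟩
  rw [integral_const_mul, hf.zero, mul_zero]

theorem vol_cube : (volume : Measure R4).real (Icc (0 : R4) 1) = 1 := by
  rw [Measure.real, Real.volume_Icc_pi]
  simp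

theorem integral_of_ZI {f : R4 → ℝ} (c : ℝ) (hf : ZI fun x => f x - c) :
    ∫ x in Icc (0 : R4) 1, f x = c := by
  have h1 : ∀ x, f x = (f x - c) + c := fun x => by ring
  have h2 : ∫ x in Icc (0 : R4) 1, f x = ∫ x in Icc (0 : R4) 1, ((f x - c) + c) := by
    congr 1
    funext x
    exact h1 x
  rw [h2, integral_add hf.cont.integrableOn_Icc continuous_const.integrableOn_Icc, hf.zero,
    setIntegral_const, vol_cube]
  simp

/-- the derivatives of the components of the primitive -/
def dl (a : CForm) (i j : Fin 4) (x : R4) : ℝ := fderiv ℝ a.lam x (e i) (e j)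

/-- the components of the primitive -/
def lj (a : CForm) (j : Fin 4) (x : R4) : ℝ := a.lam x (e j)

theorem lj_smooth (a : CForm) (j : Fin 4) : ContDiff ℝ ∞ (lj a j) :=
  a.lam_smooth.clm_apply contDiff_const

theorem lj_per (a : CForm) (j : Fin 4) (n : Fin 4 → ℤ) (x : R4) :
    lj a j (fun i => x i + n i) = lj a j x := by
  simp only [lj, a.lam_per]

theorem fderiv_lj (a : CForm) (j : Fin 4) (x u : R4) :
    fderiv ℝ (lj a j) x u = fderiv ℝ a.lam x u (e j) := by
  have hd : DifferentiableAt ℝ a.lam x := a.lam_smooth.differentiable (by simp) x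
  have : HasFDerivAt (lj a j) _ x :=
    (ContinuousLinearMap.apply ℝ ℝ (e j : R4)).hasFDerivAt.comp x hd.hasFDerivAt
  rw [this.fderiv]
  rfl

theorem dl_eq (a : CForm) (i j : Fin 4) (x : R4) : dl a i j x = fderiv ℝ (lj a j) x (e i) := by
  rw [fderiv_lj]
  rfl

theorem dl_eq' (a : CForm) (i j : Fin 4) : dl a i j = fun x => fderiv ℝ (lj a j) x (e i) :=
  funext fun x => dl_eq a i j x

theorem dl_smooth (a : CForm) (i j : Fin 4) : ContDiff ℝ ∞ (dl a i j) := by
  rw [dl_eq']
  exact ((lj_smooth a j).fderiv_right (m := ∞) (by simp)).clm_apply contDiff_const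

theorem fderiv_per {f : R4 → ℝ}
    (hp : ∀ (n : Fin 4 → ℤ) (x : R4), f (fun i => x i + n i) = f x) (n : Fin 4 → ℤ) (x : R4) :
    fderiv ℝ f (fun i => x i + n i) = fderiv ℝ f x := by
  have h1 : (fun y : R4 => f (y + fun i => (n i : ℝ))) = f := by
    funext y
    exact hp n y
  have h2 : fderiv ℝ (fun y : R4 => f (y + fun i => (n i : ℝ))) x
      = fderiv ℝ f (x + fun i => (n i : ℝ)) := fderiv_comp_add_right _
  rw [h1] at h2
  exact h2.symm

theorem dl_per (a : CForm) (i j : Fin 4) (n : Fin 4 → ℤ) (x : R4) :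
    dl a i j (fun i => x i + n i) = dl a i j x := by
  rw [dl_eq, dl_eq, fderiv_per (lj_per a j)]

theorem val_e (a : CForm) (x : R4) (i j : Fin 4) :
    a.val x (e i) (e j) = a.κ (e i) (e j) + dl a i j x - dl a j i x := rfl

theorem zi_dl (a : CForm) (i j : Fin 4) : ZI (dl a i j) := by
  refine ⟨(dl_smooth a i j).continuous, ?_⟩
  rw [dl_eq']
  exact integral_pd ((lj_smooth a j).of_le (by norm_cast)) (lj_per a j) i

theorem dl_symm (a : CForm) (i k l : Fin 4) (x : R4) :
    fderiv ℝ (dl a k l) x (e i) = fderiv ℝ (dl a i l) x (e k) := by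
  have hd : DifferentiableAt ℝ (fderiv ℝ (lj a l)) x :=
    ((lj_smooth a l).fderiv_right (m := 1) (by norm_cast)).differentiable (by simp) x
  have h1 : ∀ p q : Fin 4, fderiv ℝ (dl a p l) x (e q)
      = fderiv ℝ (fderiv ℝ (lj a l)) x (e q) (e p) := by
    intro p q
    rw [dl_eq', fderiv_clm_apply hd (differentiableAt_const _)]
    simp
  have h3 : IsSymmSndFDerivAt ℝ (lj a l) x :=
    ((lj_smooth a l).of_le (m := 2) (by norm_cast)).contDiffAt.isSymmSndFDerivAt (by simp)
  rw [h1, h1, h3.eq]

/-- integration by parts -/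
theorem zi_mul (a : CForm) (i j k l : Fin 4) :
    ZI fun x => dl a i j x * dl a k l x - dl a k j x * dl a i l x := by
  have hs : ∀ p : Fin 4, ContDiff ℝ 1 fun x => lj a j x * dl a p l x := fun p =>
    ((lj_smooth a j).mul (dl_smooth a p l)).of_le (by norm_cast)
  have hper : ∀ (p : Fin 4) (n : Fin 4 → ℤ) (x : R4),
      lj a j (fun i => x i + n i) * dl a p l (fun i => x i + n i) = lj a j x * dl a p l x := by
    intro p n x
    rw [lj_per, dl_per]
  have hfd : ∀ (p q : Fin 4) (x : R4), fderiv ℝ (fun x => lj a j x * dl a p l x) x (e q)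
      = dl a q j x * dl a p l x + lj a j x * fderiv ℝ (dl a p l) x (e q) := by
    intro p q x
    have h1 : DifferentiableAt ℝ (lj a j) x := (lj_smooth a j).differentiable (by simp) x
    have h2 : DifferentiableAt ℝ (dl a p l) x := (dl_smooth a p l).differentiable (by simp) x
    rw [fderiv_fun_mul h1 h2, dl_eq a q j]
    simp only [_root_.add_apply, _root_.smul_apply, smul_eq_mul]
    ring
  have z : ∀ p q : Fin 4, ZI fun x => fderiv ℝ (fun x => lj a j x * dl a p l x) x (e q) :=
    fun p q => ⟨((hs p).continuous_fderiv (by simp)).clm_apply continuous_const,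
      integral_pd (hs p) (hper p) q⟩
  have h := (z k i).add ((z i k).smul (-1))
  have he : (fun x => dl a i j x * dl a k l x - dl a k j x * dl a i l x) =
      fun x => fderiv ℝ (fun x => lj a j x * dl a k l x) x (e i)
        + -1 * fderiv ℝ (fun x => lj a j x * dl a i l x) x (e k) := by
    funext x
    rw [hfd, hfd, dl_symm a i k l]
    ring
  rw [he]
  exact h

theorem integral_w4 (a : CForm) : ∫ x in Icc (0 : R4) 1, w4 (a.val x) (a.val x)
    = w4 (fun u v => a.κ u v) (fun u v => a.κ u v) := by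
  refine integral_of_ZI _ ?_
  have he : (fun x => w4 (a.val x) (a.val x) - w4 (fun u v => a.κ u v) (fun u v => a.κ u v)) =
      fun x => 2 * ((((a.κ (e 0) (e 1) * dl a 2 3 x + (-a.κ (e 0) (e 1)) * dl a 3 2 x) +
        (a.κ (e 2) (e 3) * dl a 0 1 x + (-a.κ (e 2) (e 3)) * dl a 1 0 x)) +
        (((-a.κ (e 0) (e 2)) * dl a 1 3 x + (a.κ (e 0) (e 2)) * dl a 3 1 x) +
        ((-a.κ (e 1) (e 3)) * dl a 0 2 x + (a.κ (e 1) (e 3)) * dl a 2 0 x))) +
        (((a.κ (e 0) (e 3) * dl a 1 2 x + (-a.κ (e 0) (e 3)) * dl a 2 1 x) +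
        (a.κ (e 1) (e 2) * dl a 0 3 x + (-a.κ (e 1) (e 2)) * dl a 3 0 x)) +
        (((dl a 0 1 x * dl a 2 3 x - dl a 2 1 x * dl a 0 3 x) +
        (-1) * (dl a 0 1 x * dl a 3 2 x - dl a 3 1 x * dl a 0 2 x)) +
        (((-1) * (dl a 1 0 x * dl a 2 3 x - dl a 2 0 x * dl a 1 3 x) +
        (dl a 1 0 x * dl a 3 2 x - dl a 3 0 x * dl a 1 2 x)) +
        ((-1) * (dl a 0 2 x * dl a 1 3 x - dl a 1 2 x * dl a 0 3 x) +
        (-1) * (dl a 2 0 x * dl a 3 1 x - dl a 3 0 x * dl a 2 1 x)))))) := by
    funext x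
    simp only [w4, val_e]
    ring
  rw [he]
  have z := zi_dl a
  have m := zi_mul a
  exact (((((z 2 3).smul _).add ((z 3 2).smul _)).add (((z 0 1).smul _).add ((z 1 0).smul _))).add
    ((((z 1 3).smul _).add ((z 3 1).smul _)).add (((z 0 2).smul _).add ((z 2 0).smul _)))).add
    ((((((z 1 2).smul _).add ((z 2 1).smul _)).add (((z 0 3).smul _).add ((z 3 0).smul _)))).add
    (((m 0 1 2 3).add ((m 0 1 3 2).smul _)).add ((((m 1 0 2 3).smul _).add (m 1 0 3 2)).add
      (((m 0 2 1 3).smul _).add ((m 2 0 3 1).smul _))))) |>.smul 2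

theorem w4_cont (a : CForm) : Continuous fun x => w4 (a.val x) (a.val x) := by
  have h : ∀ i j : Fin 4, Continuous fun x => a.val x (e i) (e j) := fun i j =>
    (contDiff_val a contDiff_id contDiff_const contDiff_const).continuous
  simp only [w4]
  exact ((((((h 0 1).mul (h 2 3)).sub ((h 0 2).mul (h 1 3))).add ((h 0 3).mul (h 1 2))).add
    ((h 1 2).mul (h 0 3))).sub ((h 1 3).mul (h 0 2))).add ((h 2 3).mul (h 0 1))

theorem kappa_pos (a : CForm) (h : ∀ x, 0 < w4 (a.val x) (a.val x)) :
    0 < w4 (fun u v => a.κ u v) (fun u v => a.κ u v) := by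
  rw [← integral_w4]
  rw [setIntegral_pos_iff_support_of_nonneg_ae (Eventually.of_forall fun x => (h x).le)
    (w4_cont a).integrableOn_Icc]
  have hs : (Function.support fun x => w4 (a.val x) (a.val x)) = univ := by
    ext x
    simp [Function.mem_support, (h x).ne']
  rw [hs, univ_inter, Real.volume_Icc_pi]
  simp

end Vale.Agent.P247.H383.ZEND
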