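import Vale.Agent.P247.H383.ZEND.Pair
import Vale.Agent.P247.H383.ZEND.Cone
import Vale.Agent.P247.H74.RPFIN.RP
import Vale.Agent.P247.H137.All

/-!
# P247, stage 2, package Z: from the torus of the class `e 2 ∧ e 3` to `JT`
-/

open scoped ContDiff Topology
open Set MeasureTheory Filter Metric

noncomputable section

namespace Vale.Agent.P247.H383.ZEND

open Vale.Agent.P247.H74 Vale.Agent.P247.H574 Vale.Agent.P247.H74.RPFIN
open Vale.Agent.P247.H690.END

/-- an isotropic embedded torus, positive for `om`, can be parametrised `J`-holomorphically -/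
theorem jt_of (D : Data) (f : P2 → R4) (hf : ContDiff ℝ ∞ f) (hper : Per f) (hinj : Inj f)
    (hη : ∀ j p, (D.η j).val (phi f p) (ds (phi f) p) (dt (phi f) p) = 0)
    (hom : ∀ p, 0 < D.om.val (phi f p) (ds (phi f) p) (dt (phi f) p)) :
    ∃ (f' : P2 → R4) (τ' : ℂ), JT D f' τ' ∧ Imm f' ∧ Inj f' := by
  have hφ := phi_smooth hf
  have hs : ContDiff ℝ ∞ (ds (phi f)) := ds_smooth hφ
  have ht : ContDiff ℝ ∞ (dt (phi f)) := dt_smooth hφ
  have him : Imm f := fun p h0 => by
    have h1 := hom p
    have h2 := val_smul_left D.om (phi f p) 0 0 (dt (phi f) p)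
    rw [zero_smul, zero_mul] at h2
    rw [h0, h2] at h1
    exact lt_irrefl _ h1
  -- the coefficients
  have hex : ∀ p, ∃ x y : ℝ, dt (phi f) p = x • ds (phi f) p + y • D.J (phi f p) (ds (phi f) p) :=
    fun p => D.nd _ _ _ (him p) (fun j => hη j p)
  choose x y hxy using hex
  set t : P2 → ℝ := fun p => D.om.val (phi f p) (ds (phi f) p) (D.J (phi f p) (ds (phi f) p))
    with ht'
  have htpos : ∀ p, 0 < t p := fun p => D.tame _ _ (him p)
  have hJs : ContDiff ℝ ∞ fun p => D.J (phi f p) (ds (phi f) p) :=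
    (D.J_smooth.comp hφ).clm_apply hs
  have hts : ContDiff ℝ ∞ t := contDiff_val _ hφ hs hJs
  have hyt : ∀ p, y p = D.om.val (phi f p) (ds (phi f) p) (dt (phi f) p) / t p := by
    intro p
    rw [eq_div_iff (htpos p).ne', hxy p, val_add_right, val_smul_right, val_smul_right,
      val_self]
    simp only [ht']
    ring
  have hxt : ∀ p, x p
      = D.om.val (phi f p) (dt (phi f) p) (D.J (phi f p) (ds (phi f) p)) / t p := by
    intro p
    rw [eq_div_iff (htpos p).ne', hxy p, val_add_left, val_smul_left, val_smul_left,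
      val_self]
    simp only [ht']
    ring
  have hys : ContDiff ℝ ∞ y := by
    rw [show y = _ from funext hyt]
    exact (contDiff_val _ hφ hs ht).div hts (fun p => (htpos p).ne')
  have hxs : ContDiff ℝ ∞ x := by
    rw [show x = _ from funext hxt]
    exact (contDiff_val _ hφ ht hJs).div hts (fun p => (htpos p).ne')
  have hsp : Per (ds (phi f)) := fun m n p => by simp only [ds]; rw [fderiv_phi_per hper]
  have htp : Per (dt (phi f)) := fun m n p => by simp only [dt]; rw [fderiv_phi_per hper]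
  have htp' : Per t := by
    intro m n p
    simp only [ht']
    rw [hsp m n p, phi_shift hper m n p, val_per, D.J_per]
  have hyp : Per y := by
    intro m n p
    rw [hyt, hyt, htp' m n p, hsp m n p, htp m n p, phi_shift hper m n p, val_per]
  have hxp : Per x := by
    intro m n p
    rw [hxt, hxt, htp' m n p, hsp m n p, htp m n p, phi_shift hper m n p, val_per, D.J_per]
  have hy0 : ∀ p, 0 < y p := fun p => by
    rw [hyt]
    exact div_pos (hom p) (htpos p)
  exact rp_pos Vale.Agent.P247.H137.U_all D f hf hper hinj him x y hxs hys hxp hyp hy0 hxy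

theorem int_shift {i : P2 → R4} {v0 v1 : R4} (h1 : ∀ p : P2, i (p.1 + 1, p.2) = i p + v0)
    (h2 : ∀ p : P2, i (p.1, p.2 + 1) = i p + v1) (m n : ℤ) (p : P2) :
    i (p.1 + m, p.2 + n) = i p + (m : ℝ) • v0 + (n : ℝ) • v1 := by
  have h3 : Per fun p : P2 => i p - (p.1 • v0 + p.2 • v1) := by
    refine per_of (fun p => ?_) (fun p => ?_)
    · simp only [h1]
      module
    · simp only [h2]
      module
  have h4 := h3 m n p
  simp only at h4
  have h5 : i (p.1 + m, p.2 + n) = (i (p.1 + m, p.2 + n) - ((p.1 + m) • v0 + (p.2 + n) • v1))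
      + ((p.1 + m) • v0 + (p.2 + n) • v1) := by abel
  rw [h5, h4]
  module

/-- the change of parameters -/
def chg (A B C E : ℤ) : P2 →L[ℝ] P2 :=
  (((E : ℝ) • ContinuousLinearMap.fst ℝ ℝ ℝ - (C : ℝ) • ContinuousLinearMap.snd ℝ ℝ ℝ).prod
    ((A : ℝ) • ContinuousLinearMap.snd ℝ ℝ ℝ - (B : ℝ) • ContinuousLinearMap.fst ℝ ℝ ℝ))

theorem chg_apply (A B C E : ℤ) (p : P2) :
    chg A B C E p = (E * p.1 - C * p.2, A * p.2 - B * p.1) := by
  simp [chg]

theorem LAST : LAST_statement := by
  intro D C T hcls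
  -- integers
  have g : ∀ i j : Fin 4, ((T.n 0 i * T.n 1 j - T.n 0 j * T.n 1 i : ℤ) : ℝ)
      = (e 2 : R4) i * (e 3 : R4) j - (e 2 : R4) j * (e 3 : R4) i := by
    intro i j
    have := hcls (bf i j) (bf_self i j)
    rw [bf_apply, bf_apply] at this
    rw [← this]
    simp [vz]
  have g02 : T.n 0 0 * T.n 1 2 - T.n 0 2 * T.n 1 0 = 0 := by
    have := g 0 2; simp [e] at this; exact_mod_cast this
  have g03 : T.n 0 0 * T.n 1 3 - T.n 0 3 * T.n 1 0 = 0 := by
    have := g 0 3; simp [e] at this; exact_mod_cast this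
  have g12 : T.n 0 1 * T.n 1 2 - T.n 0 2 * T.n 1 1 = 0 := by
    have := g 1 2; simp [e] at this; exact_mod_cast this
  have g13 : T.n 0 1 * T.n 1 3 - T.n 0 3 * T.n 1 1 = 0 := by
    have := g 1 3; simp [e] at this; exact_mod_cast this
  have g23 : T.n 0 2 * T.n 1 3 - T.n 0 3 * T.n 1 2 = 1 := by
    have := g 2 3; simp [e] at this; exact_mod_cast this
  set A := T.n 0 2 with hA
  set B := T.n 0 3 with hB
  set C' := T.n 1 2 with hC
  set E := T.n 1 3 with hE
  have z00 : T.n 0 0 = 0 := by
    linear_combination (-(T.n 0 0)) * g23 + A * g03 - B * g02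
  have z10 : T.n 1 0 = 0 := by
    linear_combination (-(T.n 1 0)) * g23 + C' * g03 - E * g02
  have z01 : T.n 0 1 = 0 := by
    linear_combination (-(T.n 0 1)) * g23 + A * g13 - B * g12
  have z11 : T.n 1 1 = 0 := by
    linear_combination (-(T.n 1 1)) * g23 + C' * g13 - E * g12
  have v0 : vz (T.n 0) = (A : ℝ) • e 2 + (B : ℝ) • e 3 := by
    funext i
    fin_cases i
    · simp [vz, e, z00]
    · simp [vz, e, z01]
    · simp [vz, e, hA]
    · simp [vz, e, hB]
  have v1 : vz (T.n 1) = (C' : ℝ) • e 2 + (E : ℝ) • e 3 := by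
    funext i
    fin_cases i
    · simp [vz, e, z10]
    · simp [vz, e, z11]
    · simp [vz, e, hC]
    · simp [vz, e, hE]
  have hdet : (A : ℝ) * E - B * C' = 1 := by exact_mod_cast g23
  have hshift := int_shift (i := T.i) (v0 := vz (T.n 0)) (v1 := vz (T.n 1))
    (fun p => by rw [T.per₁, tr_eq]) (fun p => by rw [T.per₂, tr_eq])
  -- the new map
  let M : P2 →L[ℝ] P2 := chg A B C' E
  have hM : ∀ p, M p = (E * p.1 - C' * p.2, A * p.2 - B * p.1) := chg_apply A B C' E
  set f : P2 → R4 := fun p => T.i (M p) - lin p with hf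
  have hphi : phi f = T.i ∘ M := by
    funext p
    simp [phi, hf]
  have hfs : ContDiff ℝ ∞ f := (T.smooth.comp M.contDiff).sub lin_smooth
  have hlin : ∀ (m n : ℤ) (p : P2), lin (p.1 + m, p.2 + n) = lin p + (m : ℝ) • e 2 + (n : ℝ) • e 3 := by
    intro m n p
    funext i
    simp only [lin, e, Pi.add_apply, Pi.smul_apply, smul_eq_mul]
    fin_cases i <;> simp
  have hper : Per f := by
    intro m n p
    have h3 : M (p.1 + m, p.2 + n) = ((M p).1 + ((E * m - C' * n : ℤ) : ℝ),
        (M p).2 + ((A * n - B * m : ℤ) : ℝ)) := by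
      rw [hM, hM]
      push_cast
      ext
      · simp; ring
      · simp; ring
    simp only [hf]
    rw [h3, hshift, hlin, v0, v1]
    have h4 : (((E * m - C' * n : ℤ) : ℝ) • ((A : ℝ) • (e 2 : R4) + (B : ℝ) • e 3)
        + ((A * n - B * m : ℤ) : ℝ) • ((C' : ℝ) • e 2 + (E : ℝ) • e 3))
        = (m : ℝ) • e 2 + (n : ℝ) • e 3 := by
      push_cast
      have e1 : ((E : ℝ) * m - C' * n) * A + (A * n - B * m) * C' = m := by
        linear_combination (m : ℝ) * hdet
      have e2 : ((E : ℝ) * m - C' * n) * B + (A * n - B * m) * E = n := by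
        linear_combination (n : ℝ) * hdet
      calc _ = (((E : ℝ) * m - C' * n) * A + (A * n - B * m) * C') • (e 2 : R4)
          + (((E : ℝ) * m - C' * n) * B + (A * n - B * m) * E) • (e 3 : R4) := by module
        _ = _ := by rw [e1, e2]
    rw [add_assoc (T.i (M p)), h4]
    abel
  have hinj : Inj f := by
    intro p q hpq
    rw [hphi] at hpq
    have hpq' : T.i (M p) = T.i (M q) := hpq
    obtain ⟨a, b, hab⟩ := T.inj (M p) (M q) 0 (by
      rw [hpq']
      funext i
      simp [tr])
    rw [hab, hshift, v0, v1] at hpq'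
    have h5 : (a : ℝ) • ((A : ℝ) • (e 2 : R4) + (B : ℝ) • e 3)
        + (b : ℝ) • ((C' : ℝ) • e 2 + (E : ℝ) • e 3) = 0 := by
      rw [add_assoc] at hpq'
      simpa using hpq'
    have h6 := congrFun h5 2
    have h7 := congrFun h5 3
    simp [e] at h6 h7
    have ha : (a : ℝ) = 0 := by linear_combination (-(a : ℝ)) * hdet + E * h6 - C' * h7
    have hb : (b : ℝ) = 0 := by linear_combination (-(b : ℝ)) * hdet - B * h6 + A * h7
    rw [ha, hb, add_zero, add_zero] at hab
    have h8 : M p = M q := hab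
    rw [hM, hM] at h8
    have h9 := congrArg Prod.fst h8
    have h10 := congrArg Prod.snd h8
    simp only at h9 h10
    ext
    · linear_combination (-(p.1 - q.1)) * hdet + A * h9 + C' * h10
    · linear_combination (-(p.2 - q.2)) * hdet + B * h9 + E * h10
  have hd : ∀ p v, fderiv ℝ (phi f) p v = fderiv ℝ T.i (M p) (M v) := by
    intro p v
    have h1 : HasFDerivAt (T.i ∘ M) ((fderiv ℝ T.i (M p)).comp M) p :=
      (T.smooth.differentiable (by simp) (M p)).hasFDerivAt.comp p M.hasFDerivAt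
    rw [hphi, h1.fderiv]
    rfl
  have hsplit : ∀ (q : P2) (x y : ℝ), fderiv ℝ T.i q (x, y) = x • ds T.i q + y • dt T.i q := by
    intro q x y
    have : ((x, y) : P2) = x • ((1 : ℝ), (0 : ℝ)) + y • ((0 : ℝ), (1 : ℝ)) := by simp
    rw [this, map_add, map_smul, map_smul]
    rfl
  have hds : ∀ p, ds (phi f) p = (E : ℝ) • ds T.i (M p) + (-(B : ℝ)) • dt T.i (M p) := by
    intro p
    show fderiv ℝ (phi f) p (1, 0) = _
    rw [hd, hM (1, 0), hsplit]
    simp
  have hdt : ∀ p, dt (phi f) p = (-(C' : ℝ)) • ds T.i (M p) + (A : ℝ) • dt T.i (M p) := by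
    intro p
    show fderiv ℝ (phi f) p (0, 1) = _
    rw [hd, hM (0, 1), hsplit]
    simp
  have hval : ∀ (a : CForm) (p : P2), a.val (phi f p) (ds (phi f) p) (dt (phi f) p)
      = a.val (T.i (M p)) (ds T.i (M p)) (dt T.i (M p)) := by
    intro a p
    have h0 : phi f p = T.i (M p) := congrFun hphi p
    rw [hds, hdt, h0]
    simp only [val_add_left, val_add_right, val_smul_left, val_smul_right, val_self]
    rw [val_swap a _ (dt T.i (M p)) (ds T.i (M p))]
    linear_combination (a.val (T.i (M p)) (ds T.i (M p)) (dt T.i (M p))) * hdet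
  refine jt_of D f hfs hper hinj (fun j p => ?_) (fun p => ?_)
  · rw [hval]
    exact tor_eta T j _
  · rw [hval]
    exact tor_om T _

end Vale.Agent.P247.H383.ZEND
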