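import Vale.Agent.P247.H74.K2A.Per
import Vale.Agent.P247.H74.RPFIN.Data
import Vale.Agent.P247.H690.END.Sta

/-!
# P247, stage 2, package Z: Stokes on the unit square
-/

open scoped ContDiff Topology
open Set MeasureTheory Filter Metric

noncomputable section

namespace Vale.Agent.P247.H383.ZEND

open Vale.Agent.P247.H74 Vale.Agent.P247.H574 Vale.Agent.P247.H74.RPFIN
open Vale.Agent.P247.H690.END
open Vale.Agent.P247.H74.K2A (contDiff_ds contDiff_dt ds_dt mean_ds mean_dt mean_add mean_const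
  volume_square integrableOn_square)

/-- periodicity follows from periodicity under the two generators -/
theorem per_of {E : Type*} {g : P2 → E} (h1 : ∀ p : P2, g (p.1 + 1, p.2) = g p)
    (h2 : ∀ p : P2, g (p.1, p.2 + 1) = g p) : Per g := by
  intro m n p
  have e1 : Function.Periodic (fun s => g (s, p.2 + n)) 1 := fun s => h1 (s, p.2 + n)
  have e2 : Function.Periodic (fun t => g (p.1, t)) 1 := fun t => h2 (p.1, t)
  have e3 := (e1.int_mul m) p.1
  have e4 := (e2.int_mul n) p.2
  simp only [mul_one] at e3 e4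
  rw [e3, e4]

/-- continuous functions of mean zero -/
structure ZM (g : P2 → ℝ) : Prop where
  cont : Continuous g
  zero : mean g = 0

theorem ZM.add {f g : P2 → ℝ} (hf : ZM f) (hg : ZM g) : ZM fun x => f x + g x := by
  refine ⟨hf.cont.add hg.cont, ?_⟩
  rw [mean_add hf.cont hg.cont, hf.zero, hg.zero, add_zero]

theorem ZM.smul {f : P2 → ℝ} (c : ℝ) (hf : ZM f) : ZM fun x => c * f x := by
  refine ⟨continuous_const.mul hf.cont, ?_⟩
  have : mean (fun x => c * f x) = c * mean f := integral_const_mul c f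
  rw [this, hf.zero, mul_zero]

theorem mean_of_ZM {f : P2 → ℝ} (c : ℝ) (hf : ZM fun x => f x - c) : mean f = c := by
  have h2 : mean f = mean fun x => (f x - c) + c := by
    congr 1
    funext x
    ring
  rw [h2, mean_add hf.cont continuous_const, hf.zero, mean_const]
  simp

theorem zm_ds {g : P2 → ℝ} (hg : ContDiff ℝ ∞ g) (hp : Per g) : ZM (ds g) :=
  ⟨(contDiff_ds (m := 0) hg (by norm_cast)).continuous,
    mean_ds (hg.of_le (by norm_cast)) hp⟩

theorem zm_dt {g : P2 → ℝ} (hg : ContDiff ℝ ∞ g) (hp : Per g) : ZM (dt g) :=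
  ⟨(contDiff_dt (m := 0) hg (by norm_cast)).continuous,
    mean_dt (hg.of_le (by norm_cast)) hp⟩

theorem fderiv_bil {B : R4 →L[ℝ] R4 →L[ℝ] ℝ} {f g : P2 → R4} (hf : ContDiff ℝ ∞ f)
    (hg : ContDiff ℝ ∞ g) (p v : P2) : fderiv ℝ (fun p => B (f p) (g p)) p v
      = B (fderiv ℝ f p v) (g p) + B (f p) (fderiv ℝ g p v) := by
  have h1 : HasFDerivAt f (fderiv ℝ f p) p := (hf.differentiable (by simp) p).hasFDerivAt
  have h2 : HasFDerivAt g (fderiv ℝ g p) p := (hg.differentiable (by simp) p).hasFDerivAt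
  have h3 : HasFDerivAt (fun p => B (f p)) (B.comp (fderiv ℝ f p)) p :=
    B.hasFDerivAt.comp p h1
  have h4 := h3.clm_apply h2
  rw [h4.fderiv]
  simp
  ring

theorem fderiv_lam (a : CForm) {f g : P2 → R4} (hf : ContDiff ℝ ∞ f)
    (hg : ContDiff ℝ ∞ g) (p v : P2) : fderiv ℝ (fun p => a.lam (f p) (g p)) p v
      = fderiv ℝ a.lam (f p) (fderiv ℝ f p v) (g p) + a.lam (f p) (fderiv ℝ g p v) := by
  have h1 : HasFDerivAt f (fderiv ℝ f p) p := (hf.differentiable (by simp) p).hasFDerivAt
  have h2 : HasFDerivAt g (fderiv ℝ g p) p := (hg.differentiable (by simp) p).hasFDerivAt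
  have h0 : HasFDerivAt a.lam (fderiv ℝ a.lam (f p)) (f p) :=
    (a.lam_smooth.differentiable (by simp) _).hasFDerivAt
  have h3 : HasFDerivAt (fun p => a.lam (f p)) ((fderiv ℝ a.lam (f p)).comp (fderiv ℝ f p)) p :=
    h0.comp p h1
  have h4 := h3.clm_apply h2
  rw [h4.fderiv]
  simp
  ring

/-- Stokes -/
theorem stokes (a : CForm) {i : P2 → R4} (hi : ContDiff ℝ ∞ i) {v0 v1 : R4}
    (h1 : ∀ p : P2, i (p.1 + 1, p.2) = i p + v0) (h2 : ∀ p : P2, i (p.1, p.2 + 1) = i p + v1)
    (hlam0 : ∀ x, a.lam (x + v0) = a.lam x) (hlam1 : ∀ x, a.lam (x + v1) = a.lam x) :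
    mean (fun p => a.val (i p) (ds i p) (dt i p)) = a.κ v0 v1 := by
  -- the linear part
  let L : P2 →L[ℝ] R4 := (ContinuousLinearMap.fst ℝ ℝ ℝ).smulRight v0 +
    (ContinuousLinearMap.snd ℝ ℝ ℝ).smulRight v1
  have hL : ∀ p : P2, L p = p.1 • v0 + p.2 • v1 := fun p => rfl
  set f : P2 → R4 := fun p => i p - L p with hf
  have hfs : ContDiff ℝ ∞ f := hi.sub L.contDiff
  have hfp : Per f := by
    refine per_of (fun p => ?_) (fun p => ?_)
    · simp only [hf, h1, hL]
      module
    · simp only [hf, h2, hL]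
      module
  have hif : ∀ p v, fderiv ℝ i p v = fderiv ℝ f p v + L v := by
    intro p v
    have h3 : HasFDerivAt f (fderiv ℝ i p - L) p :=
      (hi.differentiable (by simp) p).hasFDerivAt.sub L.hasFDerivAt
    rw [h3.fderiv]
    simp
  have hds : ∀ p, ds i p = ds f p + v0 := by
    intro p
    simp only [ds, hif, hL]
    simp
  have hdt : ∀ p, dt i p = dt f p + v1 := by
    intro p
    simp only [dt, hif, hL]
    simp
  have sds : ContDiff ℝ ∞ (ds i) := contDiff_ds hi (by simp)
  have sdt : ContDiff ℝ ∞ (dt i) := contDiff_dt hi (by simp)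
  have sdsf : ContDiff ℝ ∞ (ds f) := contDiff_ds hfs (by simp)
  have sdtf : ContDiff ℝ ∞ (dt f) := contDiff_dt hfs (by simp)
  have pdsf : Per (ds f) := Vale.Agent.P247.H74.K2A.per_ds hfp
  have pdtf : Per (dt f) := Vale.Agent.P247.H74.K2A.per_dt hfp
  have pds : Per (ds i) := fun m n p => by rw [hds, hds, pdsf m n p]
  have pdt : Per (dt i) := fun m n p => by rw [hdt, hdt, pdtf m n p]
  -- the exact part
  have plam : Per fun p => a.lam (i p) := by
    refine per_of (fun p => ?_) (fun p => ?_)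
    · rw [h1, hlam0]
    · rw [h2, hlam1]
  have slam : ContDiff ℝ ∞ fun p => a.lam (i p) := a.lam_smooth.comp hi
  have z1 : ZM (ds fun p => a.lam (i p) (dt i p)) :=
    zm_ds (slam.clm_apply sdt) fun m n p => by
      have := plam m n p
      simp only at this ⊢
      rw [this, pdt m n p]
  have z2 : ZM (dt fun p => a.lam (i p) (ds i p)) :=
    zm_dt (slam.clm_apply sds) fun m n p => by
      have := plam m n p
      simp only at this ⊢
      rw [this, pds m n p]
  -- the constant part
  have z3 : ZM (ds fun p => a.κ (f p) (dt f p)) :=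
    zm_ds ((a.κ.contDiff.comp hfs).clm_apply sdtf) fun m n p => by
      rw [hfp m n p, pdtf m n p]
  have z4 : ZM (dt fun p => a.κ (f p) (ds f p)) :=
    zm_dt ((a.κ.contDiff.comp hfs).clm_apply sdsf) fun m n p => by
      rw [hfp m n p, pdsf m n p]
  have z5 : ZM (ds fun p => a.κ (f p) v1) :=
    zm_ds ((a.κ.contDiff.comp hfs).clm_apply contDiff_const) fun m n p => by
      rw [hfp m n p]
  have z6 : ZM (dt fun p => a.κ v0 (f p)) :=
    zm_dt ((a.κ v0).contDiff.comp hfs) fun m n p => by
      show a.κ v0 (f (p.1 + m, p.2 + n)) = a.κ v0 (f p)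
      rw [hfp m n p]
  have hsym : ∀ p, ds (dt i) p = dt (ds i) p := fun p => ds_dt (hi.of_le (by norm_cast)) p
  have hsymf : ∀ p, ds (dt f) p = dt (ds f) p := fun p => ds_dt (hfs.of_le (by norm_cast)) p
  have hswap : ∀ u v : R4, a.κ u v = - a.κ v u := by
    intro u v
    have := a.κ_self (u + v)
    simp only [map_add, _root_.add_apply, a.κ_self] at this
    linarith
  refine mean_of_ZM _ ?_
  have he : (fun p => a.val (i p) (ds i p) (dt i p) - a.κ v0 v1) = fun p =>
      ((ds (fun p => a.lam (i p) (dt i p)) p + (-1) * dt (fun p => a.lam (i p) (ds i p)) p) +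
      ((1 / 2) * ds (fun p => a.κ (f p) (dt f p)) p
        + (-(1 / 2)) * dt (fun p => a.κ (f p) (ds f p)) p)) +
      (ds (fun p => a.κ (f p) v1) p + dt (fun p => a.κ v0 (f p)) p) := by
    funext p
    have k1 : ds (fun p => a.lam (i p) (dt i p)) p
        = fderiv ℝ a.lam (i p) (ds i p) (dt i p) + a.lam (i p) (ds (dt i) p) :=
      fderiv_lam a hi sdt p (1, 0)
    have k2 : dt (fun p => a.lam (i p) (ds i p)) p
        = fderiv ℝ a.lam (i p) (dt i p) (ds i p) + a.lam (i p) (dt (ds i) p) :=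
      fderiv_lam a hi sds p (0, 1)
    have k3 : ds (fun p => a.κ (f p) (dt f p)) p
        = a.κ (ds f p) (dt f p) + a.κ (f p) (ds (dt f) p) := fderiv_bil hfs sdtf p (1, 0)
    have k4 : dt (fun p => a.κ (f p) (ds f p)) p
        = a.κ (dt f p) (ds f p) + a.κ (f p) (dt (ds f) p) := fderiv_bil hfs sdsf p (0, 1)
    have k5 : ds (fun p => a.κ (f p) v1) p = a.κ (ds f p) v1 := by
      have := fderiv_bil (B := a.κ) hfs (contDiff_const (c := v1)) p (1, 0)
      rw [fderiv_const_apply] at this
      have h0 : a.κ (f p) ((0 : P2 →L[ℝ] R4) (1, 0)) = 0 := by simp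
      rw [h0, add_zero] at this
      exact this
    have k6 : dt (fun p => a.κ v0 (f p)) p = a.κ v0 (dt f p) := by
      have := fderiv_bil (B := a.κ) (contDiff_const (c := v0)) hfs p (0, 1)
      rw [fderiv_const_apply] at this
      have h0 : a.κ ((0 : P2 →L[ℝ] R4) (0, 1)) (f p) = 0 := by simp
      rw [h0, zero_add] at this
      exact this
    rw [k1, k2, k3, k4, k5, k6, hsym, hsymf, CForm.val, hswap (dt f p) (ds f p)]
    have k7 : a.κ (ds i p) (dt i p) = a.κ (ds f p) (dt f p) + a.κ (ds f p) v1 + a.κ v0 (dt f p)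
        + a.κ v0 v1 := by
      rw [hds, hdt]
      simp only [map_add, _root_.add_apply]
      ring
    rw [k7]
    ring
  rw [he]
  exact ((z1.add (z2.smul _)).add ((z3.smul _).add (z4.smul _))).add (z5.add z6)

theorem tr_eq (k : Fin 4 → ℤ) (x : R4) : tr k x = x + vz k := by
  funext i
  simp [tr, vz]

theorem lam_vz (a : CForm) (k : Fin 4 → ℤ) (x : R4) : a.lam (x + vz k) = a.lam x := a.lam_per k x

theorem tor_stokes {D : Data} {C : Set R4} (T : Tor D C) (a : CForm) :
    mean (fun p => a.val (T.i p) (ds T.i p) (dt T.i p)) = a.κ (vz (T.n 0)) (vz (T.n 1)) :=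
  stokes a T.smooth (fun p => by rw [T.per₁, tr_eq]) (fun p => by rw [T.per₂, tr_eq])
    (lam_vz a _) (lam_vz a _)

theorem eta_self' (D : Data) (j : Fin 2) (x u : R4) : (D.η j).val x u (D.J x u) = 0 := by
  rw [D.η_J]
  exact Finset.sum_eq_zero fun k _ => by rw [val_self, mul_zero]

theorem tor_eta {D : Data} {C : Set R4} (T : Tor D C) (j : Fin 2) (p : P2) :
    (D.η j).val (T.i p) (ds T.i p) (dt T.i p) = 0 := by
  obtain ⟨a, b, -, h⟩ := T.hol p
  rw [h, val_add_right, val_smul_right, val_smul_right, val_self, eta_self']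
  ring

theorem tor_om {D : Data} {C : Set R4} (T : Tor D C) (p : P2) :
    0 < D.om.val (T.i p) (ds T.i p) (dt T.i p) := by
  obtain ⟨a, b, hb, h⟩ := T.hol p
  rw [h, val_add_right, val_smul_right, val_smul_right, val_self, mul_zero, zero_add]
  exact mul_pos hb (D.tame _ _ (T.ne p))

theorem mean_pos {g : P2 → ℝ} (hg : Continuous g) (h : ∀ p, 0 < g p) : 0 < mean g := by
  unfold mean
  rw [setIntegral_pos_iff_support_of_nonneg_ae (Eventually.of_forall fun x => (h x).le)
    (integrableOn_square hg)]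
  have hs : Function.support g = univ := by
    ext x
    simp [Function.mem_support, (h x).ne']
  rw [hs, univ_inter]
  have h1 := volume_square
  rw [Measure.real] at h1
  by_contra hcon
  have h2 : (volume : Measure P2) (Icc (0 : P2) 1) = 0 := le_antisymm (not_lt.1 hcon) zero_le
  rw [h2] at h1
  simp at h1

theorem PAIR : PAIR_statement := by
  intro D C T
  constructor
  · intro j
    rw [← tor_stokes T (D.η j)]
    have : (fun p => (D.η j).val (T.i p) (ds T.i p) (dt T.i p)) = fun _ => 0 :=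
      funext fun p => tor_eta T j p
    rw [this, mean_const]
  · rw [← tor_stokes T D.om]
    refine mean_pos ?_ fun p => tor_om T p
    exact (contDiff_val D.om T.smooth (contDiff_ds (m := ∞) T.smooth (by simp))
      (contDiff_dt (m := ∞) T.smooth (by simp))).continuous

end Vale.Agent.P247.H383.ZEND
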