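import Vale.Agent.P247.H383.ZEND.Quad
import Vale.Agent.P247.H574.Sta2
import Vale.Agent.P247.H74.RPFIN.Data

/-!
# P247, stage 2, package Z: pointwise positivity

Every nonzero combination of `η 0`, `η 1`, `om` has positive square at every point.
-/

open scoped ContDiff Topology
open Set MeasureTheory Filter Metric

noncomputable section

namespace Vale.Agent.P247.H383.ZEND

open Vale.Agent.P247.H74 Vale.Agent.P247.H574 Vale.Agent.P247.H74.RPFIN

/-- components of a bilinear form -/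
def co (a : R4 → R4 → ℝ) : Fin 6 → ℝ :=
  ![a (e 0) (e 1), a (e 0) (e 2), a (e 0) (e 3), a (e 1) (e 2), a (e 1) (e 3), a (e 2) (e 3)]

/-- Pluecker coordinates -/
def pl (u v : R4) : Fin 6 → ℝ :=
  ![u 0 * v 1 - u 1 * v 0, u 0 * v 2 - u 2 * v 0, u 0 * v 3 - u 3 * v 0,
    u 1 * v 2 - u 2 * v 1, u 1 * v 3 - u 3 * v 1, u 2 * v 3 - u 3 * v 2]

theorem w4_eq (a b : R4 → R4 → ℝ) : w4 a b = qb (co a) (co b) := by
  simp only [w4, qb, co]
  simp [Matrix.cons_val]

/-- pairing of a form with a bivector -/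
def pr (a p : Fin 6 → ℝ) : ℝ := ∑ k, a k * p k

theorem pr_eq (a p : Fin 6 → ℝ) :
    pr a p = a 0 * p 0 + a 1 * p 1 + a 2 * p 2 + a 3 * p 3 + a 4 * p 4 + a 5 * p 5 := by
  simp [pr, Fin.sum_univ_succ]
  ring

/-- an alternating bilinear function -/
structure Alt (a : R4 → R4 → ℝ) : Prop where
  add : ∀ u v w, a (u + v) w = a u w + a v w
  smul : ∀ (r : ℝ) u w, a (r • u) w = r * a u w
  self : ∀ u, a u u = 0

theorem Alt.swap {a : R4 → R4 → ℝ} (h : Alt a) (u v : R4) (hr : ∀ u v w, a u (v + w) = a u v + a u w) :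
    a u v = - a v u := by
  have h1 := h.self (u + v)
  rw [h.add, hr, hr, h.self, h.self] at h1
  linarith

theorem vec_eq (u : R4) : u = u 0 • e 0 + u 1 • e 1 + u 2 • e 2 + u 3 • e 3 := by
  funext i
  fin_cases i <;> simp [e]

theorem val_pl (a : CForm) (x u v : R4) : a.val x u v = pr (co (a.val x)) (pl u v) := by
  have hs := val_swap a x
  conv_lhs => rw [vec_eq u, vec_eq v]
  simp only [val_add_left, val_add_right, val_smul_left, val_smul_right, val_self]
  rw [hs (e 1) (e 0), hs (e 2) (e 0), hs (e 3) (e 0), hs (e 2) (e 1), hs (e 3) (e 1),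
    hs (e 3) (e 2), pr_eq]
  simp [co, pl]
  ring

/-- the determinant of four vectors -/
def dt4 (a b c d : R4) : ℝ := qb (pl a b) (pl c d)

theorem pfaff (k : Fin 6 → ℝ) (a b c d : R4) :
    pr k (pl a b) * pr k (pl c d) - pr k (pl a c) * pr k (pl b d) + pr k (pl a d) * pr k (pl b c)
      = (k 0 * k 5 - k 1 * k 4 + k 2 * k 3) * dt4 a b c d := by
  simp only [pr_eq, dt4, qb, pl]
  simp [Matrix.cons_val]
  ring

theorem val_zero_left (a : CForm) (x v : R4) : a.val x 0 v = 0 := by
  have := val_smul_left a x 0 0 v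
  simpa using this

theorem eta_J_left (D : Data) (j : Fin 2) (x u v : R4) :
    (D.η j).val x (D.J x u) v = (D.η j).val x u (D.J x v) := by
  rw [val_swap, D.η_J, D.η_J, ← Finset.sum_neg_distrib]
  refine Finset.sum_congr rfl fun k _ => ?_
  rw [val_swap (D.η k) x u v]
  ring

theorem eta_J_J (D : Data) (j : Fin 2) (x u v : R4) :
    (D.η j).val x (D.J x u) (D.J x v) = - (D.η j).val x u v := by
  rw [eta_J_left, D.J_sq]
  have := val_smul_right (D.η j) x (-1) u v
  simpa using this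

theorem eta_self (D : Data) (j : Fin 2) (x u : R4) : (D.η j).val x u (D.J x u) = 0 := by
  rw [D.η_J]
  exact Finset.sum_eq_zero fun k _ => by rw [val_self, mul_zero]

/-- a linear combination of the three forms -/
def cmb (D : Data) (c : Fin 3 → ℝ) : CForm where
  κ := c 0 • (D.η 0).κ + c 1 • (D.η 1).κ + c 2 • D.om.κ
  κ_self u := by simp [(D.η 0).κ_self, (D.η 1).κ_self, D.om.κ_self]
  lam x := c 0 • (D.η 0).lam x + c 1 • (D.η 1).lam x + c 2 • D.om.lam x
  lam_smooth := ((((D.η 0).lam_smooth.const_smul (c 0)).add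
    ((D.η 1).lam_smooth.const_smul (c 1)))).add (D.om.lam_smooth.const_smul (c 2))
  lam_per n x := by rw [(D.η 0).lam_per, (D.η 1).lam_per, D.om.lam_per]

theorem cmb_val (D : Data) (c : Fin 3 → ℝ) (x u v : R4) :
    (cmb D c).val x u v = c 0 * (D.η 0).val x u v + c 1 * (D.η 1).val x u v
      + c 2 * D.om.val x u v := by
  have d0 : DifferentiableAt ℝ (D.η 0).lam x := (D.η 0).lam_smooth.differentiable (by simp) x
  have d1 : DifferentiableAt ℝ (D.η 1).lam x := (D.η 1).lam_smooth.differentiable (by simp) x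
  have d2 : DifferentiableAt ℝ D.om.lam x := D.om.lam_smooth.differentiable (by simp) x
  have h : fderiv ℝ (cmb D c).lam x = c 0 • fderiv ℝ (D.η 0).lam x
      + c 1 • fderiv ℝ (D.η 1).lam x + c 2 • fderiv ℝ D.om.lam x := by
    exact (((d0.hasFDerivAt.const_smul (c 0)).add (d1.hasFDerivAt.const_smul (c 1))).add
      (d2.hasFDerivAt.const_smul (c 2))).fderiv
  simp only [CForm.val, h]
  simp only [cmb, _root_.add_apply, _root_.smul_apply, smul_eq_mul]
  ring

theorem cmb_J_left (D : Data) {c : Fin 3 → ℝ} (hc : c 2 = 0) (x u v : R4) :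
    (cmb D c).val x (D.J x u) v = (cmb D c).val x u (D.J x v) := by
  rw [cmb_val, cmb_val, hc, eta_J_left, eta_J_left]
  ring

theorem cmb_J_J (D : Data) {c : Fin 3 → ℝ} (hc : c 2 = 0) (x u v : R4) :
    (cmb D c).val x (D.J x u) (D.J x v) = - (cmb D c).val x u v := by
  rw [cmb_val, cmb_val, hc, eta_J_J, eta_J_J]
  ring

theorem cmb_self (D : Data) (c : Fin 3 → ℝ) (x u : R4) :
    (cmb D c).val x u (D.J x u) = c 2 * D.om.val x u (D.J x u) := by
  rw [cmb_val, eta_self, eta_self]
  ring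

/-- the square of a two-form -/
theorem w4_val (a : CForm) (x : R4) : w4 (a.val x) (a.val x)
    = 2 * (co (a.val x) 0 * co (a.val x) 5 - co (a.val x) 1 * co (a.val x) 4
      + co (a.val x) 2 * co (a.val x) 3) := by
  rw [w4_eq, qb]
  ring

theorem pfaff_val (a : CForm) (x p q r s : R4) :
    2 * (a.val x p q * a.val x r s - a.val x p r * a.val x q s + a.val x p s * a.val x q r)
      = w4 (a.val x) (a.val x) * dt4 p q r s := by
  rw [w4_val, mul_assoc 2 (_ : ℝ) (dt4 p q r s), ← pfaff]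
  simp only [← val_pl]

theorem e0_ne : (e 0 : R4) ≠ 0 := by
  intro h
  have := congrFun h 0
  simp [e] at this

theorem exists_v (D : Data) (a : CForm) (x : R4) :
    ∃ v : R4, v ≠ 0 ∧ a.val x (e 0) v = 0 ∧ a.val x (e 0) (D.J x v) = 0 := by
  let L : R4 →ₗ[ℝ] (Fin 2 → ℝ) :=
    { toFun := fun v => ![a.val x (e 0) v, a.val x (e 0) (D.J x v)]
      map_add' := fun v w => by
        ext i
        fin_cases i
        · simp [val_add_right]
        · simp [val_add_right]
      map_smul' := fun r v => by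
        ext i
        fin_cases i
        · simp [val_smul_right]
        · simp [val_smul_right] }
  have hker : LinearMap.ker L ≠ ⊥ := LinearMap.ker_ne_bot_of_finrank_lt (by simp)
  obtain ⟨v, hv, hv0⟩ := (Submodule.ne_bot_iff _).1 hker
  rw [LinearMap.mem_ker] at hv
  exact ⟨v, hv0, congrFun hv 0, congrFun hv 1⟩

/-- the taming case -/
theorem pos_tame {D : Data} (hD : Good D) (a : CForm) (x : R4)
    (ha : ∀ u, u ≠ 0 → 0 < a.val x u (D.J x u)) :
    0 < w4 (a.val x) (a.val x) ∧ ∃ v : R4, v ≠ 0 ∧ a.val x (e 0) v = 0 ∧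
      a.val x (e 0) (D.J x v) = 0 ∧ 0 < dt4 (e 0) (D.J x (e 0)) v (D.J x v) := by
  obtain ⟨v, hv, h1, h2⟩ := exists_v D a x
  have h3 := pfaff_val a x (e 0) (D.J x (e 0)) v (D.J x v)
  rw [h1, h2] at h3
  have h4 := pfaff_val (D.η 0) x (e 0) (D.J x (e 0)) v (D.J x v)
  rw [eta_self, eta_J_J, eta_J_left] at h4
  have h5 : 0 < w4 ((D.η 0).val x) ((D.η 0).val x) := hD.orient x
  have h6 : 0 < a.val x (e 0) (D.J x (e 0)) * a.val x v (D.J x v) :=
    mul_pos (ha _ e0_ne) (ha v hv)
  have h7 : 0 ≤ dt4 (e 0) (D.J x (e 0)) v (D.J x v) := by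
    by_contra hcon
    push Not at hcon
    have h8 := mul_neg_of_pos_of_neg h5 hcon
    nlinarith [sq_nonneg ((D.η 0).val x (e 0) v), sq_nonneg ((D.η 0).val x (e 0) (D.J x v))]
  have h9 : 0 < w4 (a.val x) (a.val x) * dt4 (e 0) (D.J x (e 0)) v (D.J x v) := by
    rw [← h3]; linarith
  have h10 : 0 < dt4 (e 0) (D.J x (e 0)) v (D.J x v) := by
    rcases h7.lt_or_eq with h | h
    · exact h
    · rw [← h, mul_zero] at h9
      exact absurd h9 (lt_irrefl _)
  exact ⟨(pos_iff_pos_of_mul_pos h9).2 h10, v, hv, h1, h2, h10⟩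

/-- a real linear combination of the two forms which vanishes on `(u, v)` and `(u, J v)` -/
theorem two_dim {c00 c01 c10 c11 s t X Y : ℝ} (h1 : c00 * c00 + c01 * c10 = -1)
    (h2 : c00 * c01 + c01 * c11 = 0) (hst : s ≠ 0 ∨ t ≠ 0)
    (h5 : s * X + t * Y = 0)
    (h6 : s * (c00 * X + c01 * Y) + t * (c10 * X + c11 * Y) = 0) : X = 0 ∧ Y = 0 := by
  have hc01 : c01 ≠ 0 := by
    intro h
    rw [h] at h1
    nlinarith [sq_nonneg c00]
  have hc10 : c10 ≠ 0 := by
    intro h
    rw [h] at h1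
    nlinarith [sq_nonneg c00]
  have hc11 : c11 = - c00 := by
    have : c01 * (c00 + c11) = 0 := by linarith
    have := (mul_eq_zero.1 this).resolve_left hc01
    linarith
  subst hc11
  -- `(s, t) c = mu (s, t)` or `(X, Y) = 0`
  have h7 : (c10 * X ^ 2 - 2 * c00 * X * Y - c01 * Y ^ 2) = 0 := by
    rcases hst with hs | ht
    · have e1 : s * (c10 * X ^ 2 - 2 * c00 * X * Y - c01 * Y ^ 2) = 0 := by
        have hY : s * (s * (c00 * X + c01 * Y) + t * (c10 * X + -c00 * Y)) = 0 := by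
          rw [h6, mul_zero]
        -- `s X = - t Y`
        have hsX : s * X = - (t * Y) := by linarith
        linear_combination (-Y) * h6 + (c10 * X - c00 * Y) * h5
      exact (mul_eq_zero.1 e1).resolve_left hs
    · have e1 : t * (c10 * X ^ 2 - 2 * c00 * X * Y - c01 * Y ^ 2) = 0 := by
        linear_combination (X) * h6 - (c00 * X + c01 * Y) * h5
      exact (mul_eq_zero.1 e1).resolve_left ht
  have h8 : (c10 * X - c00 * Y) ^ 2 + Y ^ 2 = 0 := by
    linear_combination c10 * h7 + Y ^ 2 * h1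
  have hY : Y = 0 := by
    have : Y ^ 2 = 0 := by nlinarith [sq_nonneg (c10 * X - c00 * Y), sq_nonneg Y]
    exact pow_eq_zero_iff two_ne_zero |>.1 this
  rw [hY] at h8
  have hX : (c10 * X) ^ 2 = 0 := by linarith
  have hX' := pow_eq_zero_iff two_ne_zero |>.1 hX
  exact ⟨(mul_eq_zero.1 hX').resolve_left hc10, hY⟩

theorem pos_eta {D : Data} (hD : Good D) {c : Fin 3 → ℝ} (h2 : c 2 = 0) (hc : c 0 ≠ 0 ∨ c 1 ≠ 0)
    (x : R4) : 0 < w4 ((cmb D c).val x) ((cmb D c).val x) := by
  obtain ⟨-, v, hv, h3, h4, h5⟩ := pos_tame hD D.om x (fun u hu => D.tame x u hu)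
  have h6 := pfaff_val (cmb D c) x (e 0) (D.J x (e 0)) v (D.J x v)
  rw [cmb_self, h2, cmb_J_J D h2, cmb_J_left D h2] at h6
  have h7 : 0 < (cmb D c).val x (e 0) v ^ 2 + (cmb D c).val x (e 0) (D.J x v) ^ 2 := by
    by_contra hcon
    push Not at hcon
    have k1 : (cmb D c).val x (e 0) v = 0 := by
      have : (cmb D c).val x (e 0) v ^ 2 = 0 := by
        nlinarith [sq_nonneg ((cmb D c).val x (e 0) v), sq_nonneg ((cmb D c).val x (e 0) (D.J x v))]
      exact pow_eq_zero_iff two_ne_zero |>.1 this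
    have k2 : (cmb D c).val x (e 0) (D.J x v) = 0 := by
      have : (cmb D c).val x (e 0) (D.J x v) ^ 2 = 0 := by
        nlinarith [sq_nonneg ((cmb D c).val x (e 0) v), sq_nonneg ((cmb D c).val x (e 0) (D.J x v))]
      exact pow_eq_zero_iff two_ne_zero |>.1 this
    rw [cmb_val, h2, zero_mul, add_zero] at k1 k2
    rw [D.η_J, D.η_J, Fin.sum_univ_two, Fin.sum_univ_two] at k2
    have q1 := D.c_sq x 0 0
    have q2 := D.c_sq x 0 1
    rw [Fin.sum_univ_two] at q1 q2
    simp only [if_true] at q1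
    rw [if_neg (by decide)] at q2
    obtain ⟨hX, hY⟩ := two_dim q1 q2 hc k1 k2
    obtain ⟨a, b, hab⟩ := D.nd x (e 0) v e0_ne (by
      intro j
      fin_cases j
      · exact hX
      · exact hY)
    have ht := D.tame x _ e0_ne
    rw [hab, val_add_right, val_smul_right, val_smul_right, val_self, mul_zero, zero_add] at h3
    have hb : b = 0 := (mul_eq_zero.1 h3).resolve_right ht.ne'
    rw [hab, hb, zero_smul, add_zero, map_smul, val_smul_right] at h4
    have ha : a = 0 := (mul_eq_zero.1 h4).resolve_right ht.ne'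
    apply hv
    rw [hab, ha, hb, zero_smul, zero_smul, add_zero]
  have h8 : 0 < w4 ((cmb D c).val x) ((cmb D c).val x) * dt4 (e 0) (D.J x (e 0)) v (D.J x v) := by
    rw [← h6]; nlinarith
  exact (pos_iff_pos_of_mul_pos h8).2 h5

theorem cmb_neg (D : Data) (c : Fin 3 → ℝ) (x : R4) :
    w4 ((cmb D (-c)).val x) ((cmb D (-c)).val x) = w4 ((cmb D c).val x) ((cmb D c).val x) := by
  have : ∀ u v, (cmb D (-c)).val x u v = - (cmb D c).val x u v := by
    intro u v
    rw [cmb_val, cmb_val]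
    simp only [Pi.neg_apply]
    ring
  simp only [w4, this]
  ring

/-- every nonzero combination of the three forms has positive square -/
theorem cmb_pos {D : Data} (hD : Good D) {c : Fin 3 → ℝ} (hc : c ≠ 0) (x : R4) :
    0 < w4 ((cmb D c).val x) ((cmb D c).val x) := by
  rcases lt_trichotomy (c 2) 0 with h | h | h
  · rw [← cmb_neg]
    refine (pos_tame hD _ x fun u hu => ?_).1
    rw [cmb_self]
    exact mul_pos (by simpa using h) (D.tame x u hu)
  · refine pos_eta hD h ?_ x
    by_contra hcon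
    push Not at hcon
    apply hc
    funext i
    fin_cases i
    · exact hcon.1
    · exact hcon.2
    · exact h
  · refine (pos_tame hD _ x fun u hu => ?_).1
    rw [cmb_self]
    exact mul_pos h (D.tame x u hu)

end Vale.Agent.P247.H383.ZEND
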