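import Mathlib

/-!
# P247, stage 2, package Z: the quadratic form of signature (3,3)

Components of a two-form on `ℝ⁴` in the order `01, 02, 03, 12, 13, 23`.
-/

noncomputable section

namespace Vale.Agent.P247.H383.ZEND

/-- the polarised Pfaffian -/
def qb (a b : Fin 6 → ℝ) : ℝ :=
  a 0 * b 5 - a 1 * b 4 + a 2 * b 3 + a 3 * b 2 - a 4 * b 1 + a 5 * b 0

/-- the positive part of `qb` -/
def pp : (Fin 6 → ℝ) →ₗ[ℝ] (Fin 3 → ℝ) where
  toFun a := ![a 0 + a 5, a 1 - a 4, a 2 + a 3]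
  map_add' a b := by
    ext i; fin_cases i <;> simp <;> ring
  map_smul' r a := by
    ext i; fin_cases i <;> simp <;> ring

theorem qb_of_pp {a : Fin 6 → ℝ} (h : pp a = 0) :
    2 * qb a a = -((a 0 - a 5) ^ 2 + (a 1 + a 4) ^ 2 + (a 2 - a 3) ^ 2) := by
  have h0 : a 0 + a 5 = 0 := congrFun h 0
  have h1 : a 1 - a 4 = 0 := congrFun h 1
  have h2 : a 2 + a 3 = 0 := congrFun h 2
  have e0 : a 0 = - a 5 := by linarith
  have e1 : a 1 = a 4 := by linarith
  have e2 : a 2 = - a 3 := by linarith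
  unfold qb
  rw [e0, e1, e2]
  ring

theorem qb_add (a b : Fin 6 → ℝ) (s : ℝ) :
    qb (a + s • b) (a + s • b) = qb a a + 2 * s * qb a b + s ^ 2 * qb b b := by
  simp only [qb, Pi.add_apply, Pi.smul_apply, smul_eq_mul]
  ring

theorem sq3 {x y z : ℝ} (h : x ^ 2 + y ^ 2 + z ^ 2 = 0) : x = 0 ∧ y = 0 ∧ z = 0 := by
  have hx : x ^ 2 = 0 := by linarith [sq_nonneg x, sq_nonneg y, sq_nonneg z]
  have hy : y ^ 2 = 0 := by linarith [sq_nonneg x, sq_nonneg y, sq_nonneg z]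
  have hz : z ^ 2 = 0 := by linarith [sq_nonneg x, sq_nonneg y, sq_nonneg z]
  exact ⟨pow_eq_zero_iff two_ne_zero |>.1 hx, pow_eq_zero_iff two_ne_zero |>.1 hy,
    pow_eq_zero_iff two_ne_zero |>.1 hz⟩

theorem zero_of {b : Fin 6 → ℝ} (h : pp b = 0) (h1 : qb b b = 0) : b = 0 := by
  have g0 : b 0 + b 5 = 0 := congrFun h 0
  have g1 : b 1 - b 4 = 0 := congrFun h 1
  have g2 : b 2 + b 3 = 0 := congrFun h 2
  have h2 := qb_of_pp h
  rw [h1] at h2
  obtain ⟨k0, k1, k2⟩ := sq3 (x := b 0 - b 5) (y := b 1 + b 4) (z := b 2 - b 3) (by linarith)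
  funext i
  fin_cases i
  · show b 0 = 0
    linarith
  · show b 1 = 0
    linarith
  · show b 2 = 0
    linarith
  · show b 3 = 0
    linarith
  · show b 4 = 0
    linarith
  · show b 5 = 0
    linarith

theorem qb_nonpos_of {a : Fin 6 → ℝ} (h : pp a = 0) : qb a a ≤ 0 := by
  have h1 := qb_of_pp h
  have h2 : 0 ≤ (a 0 - a 5) ^ 2 + (a 1 + a 4) ^ 2 + (a 2 - a 3) ^ 2 := by positivity
  linarith

theorem qb_smul_add (b : Fin 6 → ℝ) (a c : Fin 6 → ℝ) (s : ℝ) :
    qb (s • a + c) b = s * qb a b + qb c b := by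
  simp only [qb, Pi.add_apply, Pi.smul_apply, smul_eq_mul]
  ring

theorem qb_smul (b : Fin 6 → ℝ) (a : Fin 6 → ℝ) (s : ℝ) :
    qb (s • a) b = s * qb a b := by
  simp only [qb, Pi.smul_apply, smul_eq_mul]
  ring

theorem qb_zero : qb 0 0 = 0 := by simp [qb]

theorem exists_ker (h : Fin 3 → Fin 6 → ℝ) (b : Fin 6 → ℝ) :
    ∃ (c : Fin 3 → ℝ) (s : ℝ), (c ≠ 0 ∨ s ≠ 0) ∧ pp ((∑ i, c i • h i) + s • b) = 0 := by
  let L0 : (Fin 3 → ℝ) × ℝ →ₗ[ℝ] (Fin 6 → ℝ) :=
    { toFun := fun q => (∑ i, q.1 i • h i) + q.2 • b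
      map_add' := fun p q => by
        simp only [Prod.fst_add, Prod.snd_add, Pi.add_apply, add_smul, Finset.sum_add_distrib]
        abel
      map_smul' := fun r q => by
        simp only [Prod.smul_fst, Prod.smul_snd, Pi.smul_apply, smul_eq_mul, mul_smul,
          RingHom.id_apply, Finset.smul_sum, smul_add] }
  let L : (Fin 3 → ℝ) × ℝ →ₗ[ℝ] (Fin 3 → ℝ) := pp.comp L0
  have hL : ∀ q, L q = pp ((∑ i, q.1 i • h i) + q.2 • b) := fun q => rfl
  have hker : LinearMap.ker L ≠ ⊥ := LinearMap.ker_ne_bot_of_finrank_lt (by simp)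
  obtain ⟨q, hq, hq0⟩ := (Submodule.ne_bot_iff _).1 hker
  rw [LinearMap.mem_ker, hL] at hq
  refine ⟨q.1, q.2, ?_, hq⟩
  by_contra hcon
  push Not at hcon
  exact hq0 (Prod.ext hcon.1 hcon.2)

/-- On the orthogonal complement of a positive definite `3`-space the form is negative definite. -/
theorem neg_def (h : Fin 3 → Fin 6 → ℝ)
    (hpos : ∀ c : Fin 3 → ℝ, c ≠ 0 → 0 < qb (∑ i, c i • h i) (∑ i, c i • h i))
    (b : Fin 6 → ℝ) (hb : ∀ i, qb (h i) b = 0) : qb b b ≤ 0 ∧ (qb b b = 0 → b = 0) := by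
  obtain ⟨c, s, hcs, hq⟩ := exists_ker h b
  have h1 := qb_nonpos_of hq
  have h2 : qb (∑ i, c i • h i) b = 0 := by
    rw [Fin.sum_univ_three, add_assoc, qb_smul_add, qb_smul_add, qb_smul, hb, hb, hb]
    ring
  rw [qb_add, h2, mul_zero, add_zero] at h1
  have hA0 : 0 ≤ qb (∑ i, c i • h i) (∑ i, c i • h i) := by
    by_cases hc : c = 0
    · have : (∑ i, c i • h i) = 0 := by rw [hc]; simp
      rw [this, qb_zero]
    · exact (hpos c hc).le
  have key : 0 ≤ qb b b → qb b b = 0 ∧ b = 0 := by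
    intro hbb
    have h4 : 0 ≤ s ^ 2 * qb b b := by positivity
    have hAz : qb (∑ i, c i • h i) (∑ i, c i • h i) = 0 := by linarith
    have hc : c = 0 := by
      by_contra hc
      exact absurd hAz (hpos c hc).ne'
    have hA00 : (∑ i, c i • h i) = 0 := by rw [hc]; simp
    have hq2 : s ≠ 0 := by
      rcases hcs with h | h
      · exact absurd hc h
      · exact h
    have h6 : s ^ 2 * qb b b = 0 := by linarith
    have h7 : qb b b = 0 := by
      rcases mul_eq_zero.1 h6 with h | h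
      · exact absurd (pow_eq_zero_iff (two_ne_zero) |>.1 h) hq2
      · exact h
    refine ⟨h7, zero_of ?_ h7⟩
    rw [hA00, zero_add, map_smul] at hq
    exact (smul_eq_zero.1 hq).resolve_left hq2
  constructor
  · by_contra hcon
    push Not at hcon
    have := (key hcon.le).1
    linarith
  · intro h0
    exact (key h0.ge).2

end Vale.Agent.P247.H383.ZEND
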